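import Vale.Agent.P144Z.U4.Geo

/-!
Blocks U1 to U4: the plane statement follows from the three main statements.
-/

namespace Vale.Agent.P144Z

open Finset Matrix Filter Topology MeasureTheory

namespace U4

theorem tc_eq : tc = Real.exp (-(2 * P144.Kc)) := by
  have h2 := Real.mul_self_sqrt (show (0 : ℝ) ≤ 2 by norm_num)
  have h0 : 0 < 1 + √2 := by positivity
  unfold P144.Kc tc
  rw [mul_div_cancel₀ _ two_ne_zero, Real.exp_neg, Real.exp_log h0]
  field_simp
  linarith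

theorem rel_zero {J : ℝ} (hJ : 0 < J) (h : StateOK par0) : Rel J 0 (P144.Kc / J) par0 where
  pot := U1.pot_zero
  range := fun _ h => absurd rfl h
  mu := (mul_zero _).symm
  x := by
    rw [mul_assoc, div_mul_cancel₀ _ hJ.ne']
    exact tc_eq
  st := h

theorem exists_R {V : Finset P144.Site → ℝ} (hV : P144.IsPotential V) :
    ∃ R : ℕ, ∀ B, V B ≠ 0 → (0, 0) ∈ B → B ∈ potSets R := by
  obtain ⟨R, hR⟩ := U1.exists_range hV
  refine ⟨R, fun B hB h0 => mem_filter.2 ⟨mem_powerset.2 fun x hx => ?_, h0⟩⟩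
  have := hR B (Or.inr hB) x hx (0, 0) h0
  simp only [sub_zero, abs_le] at this
  simp only [mem_product, mem_Icc]
  exact this

theorem scale {a c r : ℝ} (ha : 0 < a) (hc : 0 < c) (h : c / (2 * a) ≤ r) (n m : ℕ) :
    (a ^ (-(1 / 8) : ℝ)) ^ n * a⁻¹ ^ m / r ^ m * r ^ (-(n : ℝ) / 8) ≤
      ((c / 2) ^ (-(1 / 8) : ℝ)) ^ n * (c / 2)⁻¹ ^ m := by
  have hr : 0 < r := lt_of_lt_of_le (by positivity) h
  have h1 : c / 2 ≤ a * r := by
    rw [div_le_iff₀ (by positivity)] at h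
    linarith
  have e : r ^ (-(n : ℝ) / 8) = (r ^ (-(1 / 8) : ℝ)) ^ n := by
    rw [← Real.rpow_natCast, ← Real.rpow_mul hr.le]
    congr 1
    ring
  calc _ = ((a * r) ^ (-(1 / 8) : ℝ)) ^ n * (a * r)⁻¹ ^ m := by
        rw [e, Real.mul_rpow ha.le hr.le, mul_pow, mul_inv, mul_pow, inv_pow r]
        ring
    _ ≤ _ := by
        refine mul_le_mul (pow_le_pow_left₀ (by positivity)
          (Real.rpow_le_rpow_of_nonpos (by positivity) h1 (by norm_num)) n)
          (pow_le_pow_left₀ (by positivity) (inv_anti₀ (by positivity) h1) m) (by positivity)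
          (by positivity)

theorem est {J lam β Zσ Zε : ℝ} {q : Par} (hJ : 0 < J) (h : Rel J lam β q)
    (h0 : Rel J 0 (P144.Kc / J) par0) (hM : MainOK q Zσ Zε) {p : P144.Pts}
    (hp : P144.Good Set.univ p) (hn : Even p.n) {ε : ℝ} (hε : 0 < ε) :
    ∀ᶠ a in 𝓝[>] (0 : ℝ), ∃ᶠ M in atTop, |P144.corr a (gibbsT J lam q.V β M) p -
      Zσ ^ p.n * Zε ^ p.m * P144.corr a (gibbsT J 0 (fun _ => 0) (P144.Kc / J) M) p| ≤ ε := by
  obtain ⟨c, hc, Λ, hpos⟩ := pos_of_good hp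
  obtain ⟨C, hC, hup⟩ := Z0.gibbsT_upper hJ p.n
  set K := ((c / 2) ^ (-(1 / 8) : ℝ)) ^ p.n * (c / 2)⁻¹ ^ p.m with hK
  have hK0 : 0 ≤ K := by positivity
  set ε' := ε / (2 * (C * K + 1)) with hε'
  have hε0 : 0 < ε' := by positivity
  obtain ⟨r₀, hr⟩ := hM p.n p.m Λ hn ε' hε0
  have h1 : ∀ᶠ a in 𝓝[>] (0 : ℝ), a < c / (2 * (r₀ + 1)) :=
    nhdsWithin_le_nhds (gt_mem_nhds (by positivity))
  filter_upwards [hpos, h1, self_mem_nhdsWithin] with a ⟨hr2, hrc, hP⟩ ha ha0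
  have ha0' : 0 < a := ha0
  set r := ⌊c / a⌋₊ with hrdef
  have hr0 : r₀ ≤ r := by
    have : (r₀ : ℝ) ≤ c / (2 * a) := by
      rw [lt_div_iff₀ (by positivity)] at ha
      rw [le_div_iff₀ (by positivity)]
      nlinarith
    exact_mod_cast this.trans hrc
  have hrp : (0 : ℝ) < r := by exact_mod_cast (by omega : 0 < r)
  obtain ⟨M₀, hM₀⟩ := hr r hr0 _ _ (ds a p) hP
  have hinj : Function.Injective (xs a p) := by
    intro i i' e
    by_contra hne
    have := hP.xx i i' hne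
    rw [e] at this
    simp [zd] at this
  have hb := hup (univ.image (xs a p)) r (by rw [card_image_of_injective _ hinj]; simp) hr2 (by
    intro u hu v hv huv
    obtain ⟨i, -, rfl⟩ := mem_image.1 hu
    obtain ⟨i', -, rfl⟩ := mem_image.1 hv
    have := hP.xx i i' fun e => huv (by rw [e])
    unfold zd at this
    rw [Int.abs_eq_natAbs, Int.abs_eq_natAbs]
    omega) par0.V
  set s := (a ^ (-(1 / 8) : ℝ)) ^ p.n * a⁻¹ ^ p.m with hs
  have hs0 : 0 ≤ s := by positivity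
  have t1 := (h.corr a hn).abs
  have t2 := ((h0.corr a hn).const_mul (Zσ ^ p.n * Zε ^ p.m)).abs
  have t3 := (h0.spins hn hinj).abs.const_mul (s * (ε' / r ^ p.m))
  have t4 := ((t1.add t2).add t3).eventually (ge_mem_nhds (show _ < ε / 2 by simpa using hε))
  refine Eventually.frequently ?_
  filter_upwards [hb, t4, eventually_ge_atTop M₀] with M hb t4 hM
  have hm := hM₀ (M + 1) (by omega)
  have k1 : s * (ε' / r ^ p.m) * (C * (r : ℝ) ^ (-(p.n : ℝ) / 8)) ≤ ε / 2 := by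
    have := scale ha0' hc hrc p.n p.m
    calc _ = ε' * (C * (s / r ^ p.m * (r : ℝ) ^ (-(p.n : ℝ) / 8))) := by ring
      _ ≤ ε' * (C * K + 1) := by
          gcongr
          nlinarith
      _ = ε / 2 := by
          rw [hε']
          field_simp
  rw [← hs] at t4
  change |P144.corr a (gibbsT J lam q.V β M) p -
    Zσ ^ p.n * Zε ^ p.m * P144.corr a (gibbsT J 0 par0.V (P144.Kc / J) M) p| ≤ ε
  generalize P144.corr a (gibbsT J lam q.V β M) p = A at *
  generalize P144.corr a (gibbsT J 0 par0.V (P144.Kc / J) M) p = A₀ at *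
  generalize mix q (M + 1) (xs a p) (ys a p) (ds a p) = B at *
  generalize mix par0 (M + 1) (xs a p) (ys a p) (ds a p) = B₀ at *
  generalize Zw par0 (sec (M + 1) AA * spinG (M + 1) 0 (xs a p)) 1 /
    Zw par0 (sec (M + 1) AA) 1 = W at *
  generalize (gibbsT J 0 par0.V (P144.Kc / J) M fun σ =>
    ∏ u ∈ univ.image (xs a p), P144.sp (σ u)) = G at *
  generalize Zσ ^ p.n * Zε ^ p.m = Z at *
  have k2 : |W| ≤ |W - G| + C * (r : ℝ) ^ (-(p.n : ℝ) / 8) := by
    have := abs_add_le (W - G) G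
    rw [sub_add_cancel] at this
    linarith
  have k3 : |s * (B - Z * B₀)| ≤ s * (ε' / r ^ p.m) * |W - G| + ε / 2 := by
    rw [abs_mul, abs_of_nonneg hs0]
    calc _ ≤ s * (ε' / r ^ p.m * (|W - G| + C * (r : ℝ) ^ (-(p.n : ℝ) / 8))) := by
          refine mul_le_mul_of_nonneg_left (hm.trans ?_) hs0
          gcongr
      _ ≤ _ := by linarith
  have e : A - Z * A₀ = (A - s * B) - Z * (A₀ - s * B₀) + s * (B - Z * B₀) := by ring
  rw [e]
  have k4 := abs_add_le ((A - s * B) - Z * (A₀ - s * B₀)) (s * (B - Z * B₀))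
  have k5 := abs_sub (A - s * B) (Z * (A₀ - s * B₀))
  linarith

end U4

theorem exists_torusState {J lam β : ℝ} {V : Finset P144.Site → ℝ} (hV : P144.IsPotential V)
    (h : ∀ A : Finset P144.Site, ∃ o, Tendsto
      (fun M => gibbsT J lam V β M fun σ => ∏ x ∈ A, P144.sp (σ x)) atTop (𝓝 o)) :
    ∃ μ, IsTorusState J lam V β μ := U1.exists_state hV J lam β h

theorem IsTorusState.tendsto {J lam β : ℝ} {V : Finset P144.Site → ℝ} {μ : Measure P144.Config}
    (hμ : IsTorusState J lam V β μ) (F : P144.Config → ℝ) (Λ : Finset P144.Site)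
    (hF : ∀ σ σ', (∀ x ∈ Λ, σ x = σ' x) → F σ = F σ') :
    Tendsto (fun M => gibbsT J lam V β M F) atTop (𝓝 (∫ σ, F σ ∂μ)) :=
  U1.state_local hμ (B := Λ) fun σ σ' h => hF σ σ' h

theorem torus0_tendsto {J : ℝ} (hJ : 0 < J) (A : Finset P144.Site) :
    Tendsto (fun M => gibbsT J 0 (fun _ => 0) (P144.Kc / J) M fun σ => ∏ x ∈ A, P144.sp (σ x))
      atTop (𝓝 (P144.H436.cl (P144.Kc / J) J A)) := U1.zero_tendsto hJ _ A

theorem Crit.mono {L : ℕ} {q : Par} {η η' δ δ' : ℝ} (h : Crit L q η δ) (hη : η ≤ η') (hδ : δ ≤ δ') :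
    Crit L q η' δ' := by
  refine ⟨h.ok, le_trans h.small hδ, ?_, h.x.trans hη, h.Z.trans hη⟩
  obtain ⟨ν, ζ, hb⟩ := h.bulk
  refine ⟨ν, ζ, fun j => ?_⟩
  have h1 : η * th L ^ j ≤ η' * th L ^ j :=
    mul_le_mul_of_nonneg_right hη (by unfold th; positivity)
  refine ⟨(hb j).1.trans h1, fun M _ a b => ⟨((hb j).2 M a b).1, fun z => ?_⟩⟩
  exact (((hb j).2 M a b).2 z).trans h1

/-- The final assembly. -/
theorem planeQ1_of (h0 : ∀ L η δ, 0 ≤ η → 0 ≤ δ → Crit L par0 η δ) (hB : BulkStmt)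
    (hS : StateStmt) (hM : MainStmt) : PlaneQ1 := by
  intro J hJ V hV ε hε
  obtain ⟨LB, hB⟩ := hB
  obtain ⟨LS, hS⟩ := hS
  obtain ⟨LM, hM⟩ := hM
  set L := max LB (max LS LM) with hL
  obtain ⟨ηB, hηB, hB⟩ := hB L (le_max_left _ _)
  obtain ⟨ηS, hηS, hS⟩ := hS L (le_max_of_le_right (le_max_left _ _))
  obtain ⟨ηM, hηM, hM⟩ := hM L (le_max_of_le_right (le_max_right _ _)) (min ε (1 / 2))
    (by positivity)
  obtain ⟨η₁, hη₁, hc⟩ : ∃ η₁ > 0, ∀ x : ℝ, |x - tc| ≤ η₁ →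
      |-Real.log x / (2 * J) - P144.Kc / J| < ε := by
    have htc : tc ≠ 0 := by
      rw [U4.tc_eq]
      exact (Real.exp_pos _).ne'
    have h1 : ContinuousAt (fun x : ℝ => -Real.log x / (2 * J)) tc :=
      ((Real.continuousAt_log htc).neg).div_const _
    obtain ⟨δ, hδ, h2⟩ := Metric.continuousAt_iff.1 h1 ε hε
    refine ⟨δ / 2, by positivity, fun x hx => ?_⟩
    have h3 := h2 (x := x) (by rw [Real.dist_eq]; linarith)
    have e : -Real.log tc / (2 * J) = P144.Kc / J := by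
      rw [U4.tc_eq, Real.log_exp]
      field_simp
    rwa [Real.dist_eq, e] at h3
  obtain ⟨R, hR⟩ := U4.exists_R hV
  obtain ⟨δS, hδS, hS1⟩ := hS R
  obtain ⟨δ0, hδ0, hS0⟩ := hS 0
  obtain ⟨δM, hδM, hM⟩ := hM R
  set η := min (min ηB ηS) (min ηM η₁) with hη
  obtain ⟨κ₀, hκ₀, hB⟩ := hB η (by positivity) ((min_le_left _ _).trans (min_le_left _ _)) V R hV
    hR (min δS δM) (by positivity)
  refine ⟨2 * J * κ₀, by positivity, fun lam hlam => ?_⟩
  obtain ⟨x, Z, hq⟩ := hB (lam / (2 * J)) (by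
    rw [abs_div, abs_of_pos (by positivity : 0 < 2 * J), div_lt_iff₀ (by positivity)]
    linarith)
  set q : Par := ⟨V, R, lam / (2 * J) * (-Real.log x), x, Z⟩ with hqdef
  have hx0 : 0 < x := lt_of_lt_of_le (by norm_num) hq.ok.x_lo
  have hx1 : x < 1 := lt_of_le_of_lt hq.ok.x_hi (by norm_num)
  have hrel : U4.Rel J lam (-Real.log x / (2 * J)) q :=
    { pot := hV
      range := hR
      mu := by
        change lam / (2 * J) * (-Real.log x) = _
        ring
      x := by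
        change x = _
        rw [show -(2 * (-Real.log x / (2 * J)) * J) = Real.log x by field_simp, Real.exp_log hx0]
      st := hS1 q rfl (hq.mono ((min_le_left _ _).trans (min_le_right _ _)) (min_le_left _ _)) }
  have hrel0 := U4.rel_zero hJ (hS0 par0 rfl (h0 L ηS δ0 hηS.le hδ0.le))
  obtain ⟨Zσ, Zε, z1, z2, hmain⟩ := hM q rfl
    (hq.mono ((min_le_right _ _).trans (min_le_left _ _)) (min_le_right _ _))
  obtain ⟨z3, z4⟩ := lt_min_iff.1 z1
  obtain ⟨z5, z6⟩ := lt_min_iff.1 z2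
  refine ⟨-Real.log x / (2 * J), div_pos (neg_pos.2 (Real.log_neg hx0 hx1)) (by positivity),
    Zσ, Zε, hc x (hq.x.trans ((min_le_right _ _).trans (min_le_right _ _))), z3, z5, ?_, ?_,
    U1.plane_of_torus hJ hV hrel.spin fun p hp hn e he => U4.est hJ hrel hrel0 hmain hp hn he⟩
  · rintro rfl
    norm_num at z4
  · rintro rfl
    norm_num at z6

end Vale.Agent.P144Z
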