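import Vale.Agent.P144Z.U4.Obs

/-!
The lattice points of a configuration of distinct points of the plane are well separated.
-/

namespace Vale.Agent.P144Z.U4

open Finset Filter Topology

theorem fl_near (a : ℝ) (z : ℂ) (o : ℤ × ℤ) (h1 : |o.1| ≤ 1) (h2 : |o.2| ≤ 1) :
    |(((P144.fl a z + o).1 : ℤ) : ℝ) - z.re / a| ≤ 2 ∧
      |(((P144.fl a z + o).2 : ℤ) : ℝ) - z.im / a| ≤ 2 := by
  have a1 := Int.floor_le (z.re / a)
  have a2 := Int.lt_floor_add_one (z.re / a)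
  have b1 := Int.floor_le (z.im / a)
  have b2 := Int.lt_floor_add_one (z.im / a)
  have c1 : |(o.1 : ℝ)| ≤ 1 := by exact_mod_cast h1
  have c2 : |(o.2 : ℝ)| ≤ 1 := by exact_mod_cast h2
  rw [abs_le] at c1 c2
  simp only [P144.fl, Prod.fst_add, Prod.snd_add, Int.cast_add, abs_le]
  refine ⟨⟨?_, ?_⟩, ?_, ?_⟩ <;> linarith [c1.1, c1.2, c2.1, c2.2]

theorem zd_cast (u v : ℤ × ℤ) :
    (zd u v : ℝ) = max |((u.1 : ℤ) : ℝ) - v.1| |((u.2 : ℤ) : ℝ) - v.2| := by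
  unfold zd
  push_cast
  rw [Nat.cast_natAbs, Nat.cast_natAbs]
  push_cast
  rfl

theorem sep {ι : Type} [Fintype ι] {z : ι → ℂ} (hz : Function.Injective z) :
    ∃ c > (0 : ℝ), ∃ Λ : ℕ, ∀ᶠ a : ℝ in 𝓝[>] (0 : ℝ), 2 ≤ ⌊c / a⌋₊ ∧ c / (2 * a) ≤ ⌊c / a⌋₊ ∧
      ∀ w : ι → ℤ × ℤ, (∀ i, |(((w i).1 : ℤ) : ℝ) - (z i).re / a| ≤ 2 ∧
        |(((w i).2 : ℤ) : ℝ) - (z i).im / a| ≤ 2) →
      (∀ i, zd (w i) 0 ≤ Λ * ⌊c / a⌋₊) ∧ ∀ i i', i ≠ i' → ⌊c / a⌋₊ < zd (w i) (w i') := by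
  obtain ⟨c, hc, hc0⟩ : ∃ c : ℝ, (∀ ii : ι × ι, ii.1 ≠ ii.2 →
      2 * c ≤ max |(z ii.1).re - (z ii.2).re| |(z ii.1).im - (z ii.2).im|) ∧ 0 < c := by
    refine ((eventually_all.2 fun ii : ι × ι => ?_).and
      (self_mem_nhdsWithin (a := (0 : ℝ)) (s := Set.Ioi 0))).exists
    by_cases h : ii.1 = ii.2
    · exact Eventually.of_forall fun _ h' => absurd h h'
    · have hpos : 0 < max |(z ii.1).re - (z ii.2).re| |(z ii.1).im - (z ii.2).im| := by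
        by_contra hn
        push Not at hn
        rw [max_le_iff, abs_nonpos_iff, abs_nonpos_iff, sub_eq_zero, sub_eq_zero] at hn
        exact h (hz (Complex.ext hn.1 hn.2))
      have : Tendsto (fun c : ℝ => 2 * c) (𝓝[>] 0) (𝓝 0) := by
        have : Tendsto (fun c : ℝ => 2 * c) (𝓝 0) (𝓝 (2 * 0)) := tendsto_id.const_mul 2
        rw [mul_zero] at this
        exact this.mono_left nhdsWithin_le_nhds
      exact (this.eventually (ge_mem_nhds hpos)).mono fun _ h _ => h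
  obtain ⟨B, hB⟩ : ∃ B : ℝ, ∀ i, ‖z i‖ ≤ B := ⟨∑ i, ‖z i‖, fun i =>
    single_le_sum (f := fun i => ‖z i‖) (fun _ _ => norm_nonneg _) (mem_univ i)⟩
  refine ⟨c, hc0, ⌈2 * (B + 2) / c⌉₊, ?_⟩
  have h1 : ∀ᶠ a in 𝓝[>] (0 : ℝ), a < min 1 (c / 5) :=
    nhdsWithin_le_nhds (gt_mem_nhds (by positivity))
  filter_upwards [h1, self_mem_nhdsWithin] with a ha ha0
  have ha0' : 0 < a := ha0
  obtain ⟨ha1, ha2⟩ := lt_min_iff.1 ha
  have h5 : 5 < c / a := by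
    rw [lt_div_iff₀ ha0']
    linarith
  have r1 : (⌊c / a⌋₊ : ℝ) ≤ c / a := Nat.floor_le (by positivity)
  have r2 : c / a < ⌊c / a⌋₊ + 1 := Nat.lt_floor_add_one _
  have r3 : c / (2 * a) ≤ ⌊c / a⌋₊ := by
    have : c / (2 * a) = c / a / 2 := by field_simp
    linarith
  refine ⟨by exact_mod_cast (by linarith : (2 : ℝ) ≤ ⌊c / a⌋₊), r3, fun w hw => ⟨fun i => ?_,
    fun i i' hi => ?_⟩⟩
  · have b1 : |(z i).re / a| ≤ B / a := by
      rw [abs_div, abs_of_pos ha0']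
      exact div_le_div_of_nonneg_right ((Complex.abs_re_le_norm _).trans (hB i)) ha0'.le
    have b2 : |(z i).im / a| ≤ B / a := by
      rw [abs_div, abs_of_pos ha0']
      exact div_le_div_of_nonneg_right ((Complex.abs_im_le_norm _).trans (hB i)) ha0'.le
    have b3 : (2 : ℝ) ≤ 2 / a := by
      rw [le_div_iff₀ ha0']
      linarith
    have hB0 : 0 ≤ B := (norm_nonneg _).trans (hB i)
    have b4 : (zd (w i) 0 : ℝ) ≤ (B + 2) / a := by
      rw [zd_cast, add_div]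
      obtain ⟨w1, w2⟩ := hw i
      rw [abs_le] at w1 w2 b1 b2
      simp only [Prod.fst_zero, Prod.snd_zero, Int.cast_zero, sub_zero, max_le_iff, abs_le]
      refine ⟨⟨?_, ?_⟩, ?_, ?_⟩ <;> linarith [w1.1, w1.2, w2.1, w2.2, b1.1, b1.2, b2.1, b2.2]
    have b5 : (B + 2) / a ≤ (⌈2 * (B + 2) / c⌉₊ : ℝ) * ⌊c / a⌋₊ := by
      calc (B + 2) / a = 2 * (B + 2) / c * (c / (2 * a)) := by field_simp
        _ ≤ _ := mul_le_mul (Nat.le_ceil _) r3 (by positivity) (by positivity)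
    exact_mod_cast b4.trans b5
  · have d1 := hc (i, i') hi
    have d2 : 2 * (c / a) ≤ max |(z i).re / a - (z i').re / a| |(z i).im / a - (z i').im / a| := by
      rw [← sub_div, ← sub_div, abs_div, abs_div, abs_of_pos ha0', max_div_div_right ha0'.le,
        ← mul_div_assoc]
      exact div_le_div_of_nonneg_right d1 ha0'.le
    have : (⌊c / a⌋₊ : ℝ) < zd (w i) (w i') := by
      rw [zd_cast]
      obtain ⟨w1, w2⟩ := hw i
      obtain ⟨w3, w4⟩ := hw i'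
      rw [abs_le] at w1 w2 w3 w4
      rcases le_max_iff.1 d2 with h | h
      · refine lt_max_of_lt_left ?_
        rcases le_abs.1 h with h | h
        · exact lt_abs.2 (Or.inl (by linarith [w1.1, w3.2]))
        · exact lt_abs.2 (Or.inr (by linarith [w1.2, w3.1]))
      · refine lt_max_of_lt_right ?_
        rcases le_abs.1 h with h | h
        · exact lt_abs.2 (Or.inl (by linarith [w2.1, w4.2]))
        · exact lt_abs.2 (Or.inr (by linarith [w2.2, w4.1]))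
    exact_mod_cast this

theorem pos_of_good {p : P144.Pts} (hp : P144.Good Set.univ p) :
    ∃ c > (0 : ℝ), ∃ Λ : ℕ, ∀ᶠ a : ℝ in 𝓝[>] (0 : ℝ), 2 ≤ ⌊c / a⌋₊ ∧ c / (2 * a) ≤ ⌊c / a⌋₊ ∧
      Pos (xs a p) (ys a p) Λ ⌊c / a⌋₊ := by
  obtain ⟨c, hc, Λ, h⟩ := sep hp.2.2.2
  refine ⟨c, hc, Λ, h.mono fun a ha => ⟨ha.1, ha.2.1, ?_⟩⟩
  obtain ⟨h1, h2⟩ := ha.2.2 (Sum.elim (xs a p) (ys a p)) (by
    rintro (i | k)
    · simpa [xs] using fl_near a (p.x i) 0 (by simp) (by simp)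
    · exact fl_near a (p.y k) (uz (p.j k)) (by unfold uz; split_ifs <;> simp)
        (by unfold uz; split_ifs <;> simp))
  exact ⟨fun i => h1 (Sum.inl i), fun k => h1 (Sum.inr k),
    fun i i' hi => h2 (Sum.inl i) (Sum.inl i') (by simpa using hi),
    fun i k => h2 (Sum.inl i) (Sum.inr k) (by simp),
    fun k k' hk => h2 (Sum.inr k) (Sum.inr k') (by simpa using hk)⟩

end Vale.Agent.P144Z.U4
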