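import Vale.Agent.P144Z.H3.Main
import Vale.Agent.P144Z.Z0.Spin

/-!
Local observables of the contours; the mixed correlations on tori and in the antiperiodic sector
have the same limit.
-/

namespace Vale.Agent.P144Z.U4

open Finset Matrix Filter Topology MeasureTheory

/-- Observables that depend on finitely many edges and are bounded by one. -/
def Loc (O : ((ℤ × ℤ) × Fin 2 → Bool) → ℝ) : Prop :=
  (∃ E : Finset ((ℤ × ℤ) × Fin 2), ∀ n n', (∀ e ∈ E, n e = n' e) → O n = O n') ∧ ∀ n, |O n| ≤ 1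

theorem Loc.one : Loc fun _ => 1 := ⟨⟨∅, fun _ _ _ => rfl⟩, fun _ => by simp⟩

theorem Loc.mul {O O' : ((ℤ × ℤ) × Fin 2 → Bool) → ℝ} (h : Loc O) (h' : Loc O') :
    Loc fun n => O n * O' n := by
  obtain ⟨⟨E, hE⟩, hb⟩ := h
  obtain ⟨⟨E', hE'⟩, hb'⟩ := h'
  refine ⟨⟨E ∪ E', fun n n' h => ?_⟩, fun n => ?_⟩
  · exact congrArg₂ (· * ·) (hE n n' fun e he => h e (mem_union_left _ he))
      (hE' n n' fun e he => h e (mem_union_right _ he))
  · rw [abs_mul]
    exact mul_le_one₀ (hb n) (abs_nonneg _) (hb' n)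

theorem Loc.prod {ι : Type} (s : Finset ι) {O : ι → ((ℤ × ℤ) × Fin 2 → Bool) → ℝ}
    (h : ∀ i, Loc (O i)) : Loc fun n => ∏ i ∈ s, O i n := by
  classical
  induction s using Finset.induction_on with
  | empty => simpa using Loc.one
  | insert a s ha ih =>
    simp only [prod_insert ha]
    exact (h a).mul ih

theorem Loc.sgn (e : (ℤ × ℤ) × Fin 2) : Loc fun n => sgn (n e) := by
  refine ⟨⟨{e}, fun n n' h => congrArg P144Z.sgn (h e (mem_singleton_self e))⟩, fun n => ?_⟩
  change |P144Z.sgn (n e)| ≤ 1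
  cases n e <;> simp [P144Z.sgn]

theorem Loc.pHV (a b : ℤ × ℤ) : Loc fun n => pHV n a b :=
  (Loc.prod _ fun _ => Loc.sgn _).mul (Loc.prod _ fun _ => Loc.sgn _)

/-- The expectation in the antiperiodic sector. -/
noncomputable def aa (q : Par) (M : ℕ) (O : ((ℤ × ℤ) × Fin 2 → Bool) → ℝ) : ℝ :=
  Zw q (sec (M + 1) AA) (obs (M + 1) O) / Zw q (sec (M + 1) AA) 1

/-- The parameters `q` describe the model `J, lam, β`, and its state converges. -/
structure Rel (J lam β : ℝ) (q : Par) : Prop where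
  pot : P144.IsPotential q.V
  range : ∀ B, q.V B ≠ 0 → (0, 0) ∈ B → B ∈ potSets q.R
  mu : q.μ = β * lam
  x : q.x = Real.exp (-(2 * β * J))
  st : StateOK q

variable {J lam β : ℝ} {q : Par}

theorem Rel.lim (h : Rel J lam β q) {O : ((ℤ × ℤ) × Fin 2 → Bool) → ℝ} (hO : Loc O)
    {F : P144.Config → ℝ}
    (hF : ∀ (M : ℕ) (s : Tor (M + 1) → Bool), F (per (M + 1) s) = obs (M + 1) O (dom s)) :
    ∃ o, Tendsto (fun M => gibbsT J lam q.V β M F) atTop (𝓝 o) ∧
      Tendsto (fun M => aa q M O) atTop (𝓝 o) := by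
  obtain ⟨⟨E, hE⟩, hb⟩ := hO
  obtain ⟨o, h1, h2⟩ := h.st (insert (0, 0) (E.image Prod.fst ∪ E.image fun e => e.1 + uz e.2)) O
    (mem_insert_self _ _) (fun n n' hn => hE n n' fun e he => hn e
      (mem_insert_of_mem (mem_union_left _ (mem_image_of_mem _ he)))
      (mem_insert_of_mem (mem_union_right _ (mem_image_of_mem (fun e => e.1 + uz e.2) he)))) hb
  refine ⟨o, h1.congr' ?_, h2⟩
  filter_upwards [eventually_ge_atTop 4] with M hM
  exact (gibbsT_eq q h.pot h.range h.mu h.x hM F _ (hF M)).symm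

theorem prod_spin {ι : Type} (s : Finset ι) (hs : Even s.card) (x : ι → ℤ × ℤ) (M : ℕ)
    (σ : Tor (M + 1) → Bool) :
    ∏ i ∈ s, P144.sp (per (M + 1) σ (x i)) =
      obs (M + 1) (fun c => ∏ i ∈ s, pHV c 0 (x i)) (dom σ) := by
  have e : obs (M + 1) (fun c => ∏ i ∈ s, pHV c 0 (x i)) (dom σ) =
      ∏ i ∈ s, obs (M + 1) (fun c => pHV c 0 (x i)) (dom σ) := rfl
  rw [e]
  simp only [pHV_dom]
  rw [prod_mul_distrib, prod_const]
  obtain ⟨k, hk⟩ := hs
  rw [hk, pow_add, ← mul_pow, I1.sp_mul_self, one_pow, one_mul]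

theorem Rel.spin (h : Rel J lam β q) (A : Finset P144.Site) : ∃ c, Tendsto
    (fun M => gibbsT J lam q.V β M fun σ => ∏ x ∈ A, P144.sp (σ x)) atTop (𝓝 c) := by
  rcases Nat.even_or_odd A.card with hA | hA
  · obtain ⟨o, ho, -⟩ := h.lim (Loc.prod A fun x => Loc.pHV 0 x)
      (F := fun σ => ∏ x ∈ A, P144.sp (σ x)) fun M s => prod_spin A hA (fun x => x) M s
    exact ⟨o, ho⟩
  · refine ⟨0, tendsto_const_nhds.congr fun M => (U1.gibbsT_odd h.pot J lam β M fun σ => ?_).symm⟩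
    simp only [U1.sp_not]
    rw [prod_neg, hA.neg_one_pow, neg_one_mul]

/-- The sites of the spins. -/
noncomputable def xs (a : ℝ) (p : P144.Pts) (i : Fin p.n) : ℤ × ℤ := P144.fl a (p.x i)

/-- The starting points of the edges of the energies. -/
noncomputable def ys (a : ℝ) (p : P144.Pts) (k : Fin p.m) : ℤ × ℤ :=
  (dualE (P144.fl a (p.y k)) (p.j k)).1

/-- The directions of the edges of the energies. -/
noncomputable def ds (a : ℝ) (p : P144.Pts) (k : Fin p.m) : Fin 2 :=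
  (dualE (P144.fl a (p.y k)) (p.j k)).2

/-- The product of the spins and of some energies, as a function of the contours. -/
noncomputable def ot (a : ℝ) (p : P144.Pts) (t : Finset (Fin p.m))
    (c : (ℤ × ℤ) × Fin 2 → Bool) : ℝ :=
  (∏ k ∈ t, sgn (c (ys a p k, ds a p k))) * ∏ i, pHV c 0 (xs a p i)

theorem loc_ot (a : ℝ) (p : P144.Pts) (t : Finset (Fin p.m)) : Loc (ot a p t) :=
  (Loc.prod _ fun _ => Loc.sgn _).mul (Loc.prod _ fun _ => Loc.pHV _ _)

theorem Zw_sum {M : ℕ} [NeZero M] (q : Par) (A : Gauge M) {ι : Type} (s : Finset ι) (c : ι → ℝ)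
    (Φ : ι → (Tor M × Fin 2 → Bool) → ℝ) :
    Zw q A (fun n => ∑ i ∈ s, c i * Φ i n) = ∑ i ∈ s, c i * Zw q A (Φ i) := by
  unfold Zw
  simp only [mul_sum]
  rw [sum_comm]
  exact sum_congr rfl fun i _ => sum_congr rfl fun n _ => by ring

theorem mix_eq (q : Par) (M : ℕ) (a : ℝ) (p : P144.Pts) :
    mix q (M + 1) (xs a p) (ys a p) (ds a p) = ∑ t ∈ (univ : Finset (Fin p.m)).powerset,
      (∏ k ∈ univ \ t, -aa q M fun c => sgn (c (ys a p k, ds a p k))) * aa q M (ot a p t) := by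
  unfold mix
  rw [Zw_spinG]
  have e : (fun c => (∏ k, (sgn (c (prj (M + 1) (ys a p k), ds a p k)) -
      en q (M + 1) (ys a p k) (ds a p k))) *
      obs (M + 1) (fun c' => ∏ i, pHV c' 0 (xs a p i)) c) =
      fun c => ∑ t ∈ (univ : Finset (Fin p.m)).powerset,
        (∏ k ∈ univ \ t, -aa q M fun c => sgn (c (ys a p k, ds a p k))) *
          obs (M + 1) (ot a p t) c := by
    funext c
    simp only [sub_eq_add_neg]
    rw [prod_add, sum_mul]
    refine sum_congr rfl fun t _ => ?_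
    rw [mul_right_comm, mul_comm]
    rfl
  rw [e, Zw_sum, sum_div]
  exact sum_congr rfl fun t _ => mul_div_assoc _ _ _

theorem Rel.corr (h : Rel J lam β q) (a : ℝ) {p : P144.Pts} (hp : Even p.n) :
    Tendsto (fun M => P144.corr a (gibbsT J lam q.V β M) p -
      (a ^ (-(1 / 8) : ℝ)) ^ p.n * a⁻¹ ^ p.m * mix q (M + 1) (xs a p) (ys a p) (ds a p)) atTop
      (𝓝 0) := by
  have he : ∀ (M : ℕ) (s : Tor (M + 1) → Bool) k, U1.en a p k (per (M + 1) s) =
      obs (M + 1) (fun c => sgn (c (ys a p k, ds a p k))) (dom s) := fun M s k =>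
    (sgn_dom s _ _).symm
  choose e he1 he2 using fun k => h.lim (Loc.sgn (ys a p k, ds a p k)) (F := U1.en a p k)
    fun M s => he M s k
  choose o ho1 ho2 using fun t : Finset (Fin p.m) => h.lim (loc_ot a p t)
    (F := fun σ => (∏ k ∈ t, U1.en a p k σ) * ∏ i, P144.sp (σ (xs a p i))) fun M s => by
      rw [prod_spin univ (by simpa using hp), prod_congr rfl fun k _ => he M s k]
      rfl
  have e1 : ∀ M, P144.corr a (gibbsT J lam q.V β M) p =
      ∑ t ∈ (univ : Finset (Fin p.m)).powerset,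
        (a ^ (-(1 / 8) : ℝ)) ^ p.n * a⁻¹ ^ p.m *
        ((∏ k ∈ univ \ t, -gibbsT J lam q.V β M (U1.en a p k)) * gibbsT J lam q.V β M
          fun σ => (∏ k ∈ t, U1.en a p k σ) * ∏ i, P144.sp (σ (xs a p i))) := by
    intro M
    have e : gibbsT J lam q.V β M = fun F => ∫ σ, F σ ∂(U1.tm J lam q.V β M) :=
      funext fun F => (U1.integral_tm J lam q.V β M F).symm
    rw [e, U1.corr_expand]
    refine sum_congr rfl fun t _ => ?_
    have e2 : U1.mom a p t = fun σ => ((a ^ (-(1 / 8) : ℝ)) ^ p.n * a⁻¹ ^ t.card) *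
        ((∏ k ∈ t, U1.en a p k σ) * ∏ i, P144.sp (σ (xs a p i))) := by
      funext σ
      unfold U1.mom
      rw [prod_mul_distrib, prod_mul_distrib, prod_const, prod_const, card_univ, Fintype.card_fin]
      unfold xs
      ring
    have e3 : p.m = (univ \ t).card + t.card := by
      rw [card_sdiff_add_card_eq_card (subset_univ t), card_univ, Fintype.card_fin]
    simp only [e2, integral_const_mul, neg_mul_eq_mul_neg]
    rw [prod_mul_distrib, prod_const]
    conv_rhs => rw [show a⁻¹ ^ p.m = a⁻¹ ^ (univ \ t).card * a⁻¹ ^ t.card by rw [← pow_add, ← e3]]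
    ring
  simp only [e1, mix_eq, mul_sum, ← sum_sub_distrib, ← mul_sub]
  have key := tendsto_finsetSum (univ : Finset (Fin p.m)).powerset fun t _ =>
    ((((tendsto_finsetProd (univ \ t) fun k _ => (he1 k).neg).mul (ho1 t)).sub
      ((tendsto_finsetProd (univ \ t) fun k _ => (he2 k).neg).mul (ho2 t))).const_mul
      ((a ^ (-(1 / 8) : ℝ)) ^ p.n * a⁻¹ ^ p.m))
  simpa using key

theorem Rel.spins (h : Rel J lam β q) {n : ℕ} (hn : Even n) {x : Fin n → ℤ × ℤ}
    (hx : Function.Injective x) :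
    Tendsto (fun M => Zw q (sec (M + 1) AA * spinG (M + 1) 0 x) 1 / Zw q (sec (M + 1) AA) 1 -
      gibbsT J lam q.V β M fun σ => ∏ u ∈ univ.image x, P144.sp (σ u)) atTop (𝓝 0) := by
  obtain ⟨o, h1, h2⟩ := h.lim (Loc.prod univ fun i => Loc.pHV 0 (x i))
    (F := fun σ => ∏ u ∈ univ.image x, P144.sp (σ u)) fun M s => by
      rw [prod_image fun i _ j _ e => hx e, prod_spin univ (by simpa using hn)]
  have := h2.sub h1
  rw [sub_self] at this
  refine this.congr fun M => ?_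
  rw [Zw_spinG]
  simp only [Pi.one_apply, one_mul]
  rfl

end Vale.Agent.P144Z.U4
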